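import Crest.Agent.X212.Psc68.Sup
import Crest.Agent.X212.Pb50.Main
import Crest.Agent.X212.Rad94.Leaf

/-!
# Row 212, RAD-PSC (helper68): solutions on a cylinder of positive scalar curvature are bounded
-/

set_option autoImplicit false
set_option linter.unusedSectionVars false
noncomputable section
open scoped Manifold ContDiff Topology InnerProductSpace
open MeasureTheory Set Filter

namespace Crest.Agent.X212.Psc68
open An Wz78 Sob92 Cyf70 Sw88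
open Sw (Bg F2 En3 Nk Pc Dt)
open M (Mf)

variable {κ lam ν : Type} [Fintype κ] [Fintype lam] [Fintype ν] [DecidableEq ν]
  {X : Mf 4} {nc : ℕ}

theorem ms_bd {b : Bg X.I X.M κ lam ν nc} (hb : b.OK) : ∃ k, (∀ x, ‖b.ms x‖ ≤ k) ∧
    ∀ i x, ‖b.F.D i b.ms x + (b.A i x * b.ms x - b.ms x * b.A i x)‖ ≤ k := by
  obtain ⟨C, -, hC⟩ := hb.cms
  choose A hA using hb.cA
  have h0 := fun x => CB_bound (CB_abs (hC 1)) x
  have h1 : ∀ i x, ‖b.A i x‖ ≤ ∑ i, |A i 0| := fun i x => (CB_bound (CB_abs ((hA i).2 0)) x).trans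
    (Finset.single_le_sum (f := fun i => |A i 0|) (fun _ _ => abs_nonneg _) (Finset.mem_univ i))
  refine ⟨|C 1| + 2 * ((∑ i, |A i 0|) * |C 1|), fun x => (h0 x).trans (le_add_of_nonneg_right
    (by positivity)), fun i x => (norm_add_le _ _).trans (add_le_add
      (CB_bound (CB_D (CB_abs (hC 1)) i) x) ((norm_sub_le _ _).trans ?_))⟩
  linarith [(norm_mul_le _ _).trans (mul_le_mul (h1 i x) (h0 x) (norm_nonneg _) (by positivity)),
    (norm_mul_le _ _).trans (mul_le_mul (h0 x) (h1 i x) (norm_nonneg _) (by positivity))]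

theorem yt_bd {e : En3 κ lam ν} (he : IsCompact e.S) (T : Option e.YT) :
    ∃ A, 0 ≤ A ∧ ∀ T' ∈ T, ∀ r y, ‖T'.b r • T'.fo y‖ ≤ A := by
  rcases T with _ | T
  · exact ⟨0, le_rfl, by simp⟩
  obtain ⟨A, hA⟩ := T.sb.continuous.bounded_above_of_compact_support
    (.intro he fun r hr => by_contra fun h => hr (T.S h))
  obtain ⟨B, hB⟩ := isCompact_univ.exists_bound_of_continuousOn T.sf.continuous.continuousOn
  refine ⟨|A| * |B|, by positivity, fun _ h r y => ?_⟩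
  rw [← Option.some.inj h, norm_smul]
  exact mul_le_mul ((hA r).trans (le_abs_self A)) ((hB y trivial).trans (le_abs_self B))
    (norm_nonneg _) (abs_nonneg _)

theorem tau_le {d : Dt κ lam ν} {N : Type} [Fintype N] {ty : N → d.𝓔} (P : Pc d X nc ty)
    (hf : ∀ i, (d.e (ty i)).f = 0) {c : Sw.Cfg X.M κ ν} {x : X.M} {s : d.W → ℝ} {A : d.W → N → ℝ}
    (h1 : ∀ v, ‖P.fo v x‖ ≤ s v)
    (h2 : ∀ v i, 0 ≤ A v i ∧ ∀ T ∈ d.yt v (ty i), ∀ r y, ‖T.b r • T.fo y‖ ≤ A v i) (q : d.W →₀ ℝ) :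
    ‖(P.pt q).C c x‖ ≤ q.sum fun v r => |r| * (s v + ∑ i, A v i) := by
  have e : P.p0.C c x = 0 := Finset.sum_eq_zero fun i _ => by
    rcases P.nk i with _ | K
    · rfl
    · simp [Nk.hl, hf]
  change ‖P.p0.C c x + _‖ ≤ _
  rw [e, zero_add]
  refine (norm_sum_le _ _).trans (Finset.sum_le_sum fun v _ => (norm_smul_le _ _).trans
    (mul_le_mul_of_nonneg_left ((norm_add_le _ _).trans (add_le_add (h1 v)
      ((norm_sum_le _ _).trans (Finset.sum_le_sum fun i _ => ?_)))) (abs_nonneg _)))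
  rcases P.nk i with _ | K
  · simpa using (h2 v i).1
  rcases hT : d.yt v (ty i) with _ | T
  · simpa using (h2 v i).1
  · change ‖K.ms T c x‖ ≤ _
    rw [Nk.ms, Nd18.Nk.ext, smul_comm]
    exact (norm_χ_smul K x _).trans ((h2 v i).2 T hT _ _)

section nk
variable {e : En3 κ lam ν} {b b' : Bg X.I X.M κ lam ν nc} (K : Nd18.Nk e.D b.B b.G) (K' : Nk e b')
  (c : Sw.Cfg X.M κ ν)

theorem β_off {t : ℝ} (h : t ∉ K'.J) : β K' c t = 0 := by
  rw [β, show K'.cut 1 t = 0 from Nd18.ct_zero fun k => h (Nd18.Dp_sub one_pos k), zero_mul]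

variable (h : ∀ z ∈ K'.ψ.source, K'.ψ z = K.ψ z)
include h

theorem β_zero (he : e.OK) {t : ℝ} (ht : 1 ≤ nn c K t) : β K' c t = 0 := by
  by_cases k : t ∈ K'.J
  · exact mul_eq_zero_of_right _ (he.b1 _ (ht.trans_eq (integral_congr_ae (.of_forall fun y =>
      congrArg (‖c.Φ ·‖ ^ 2) (h _ (K'.mem_src.2 k)).symm))))
  · exact β_off K' c k

theorem β_tm (hp : K.p = none) (hq : K.q = none) (x : X.M) :
    β K' c (K'.tm x) = β K' c (K.tm x) := by
  by_cases k : K'.tm x ∈ K'.J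
  · have a : x ∈ K'.ψ.target := K'.tgt ▸ k
    rw [← K'.snd_symm a, ← K.tm_ψ _ (src K hp hq _), ← h _ (K'.ψ.map_target a), K'.ψ.right_inv a]
  rw [β_off K' c k, β_off K' c fun k' => k ?_]
  have a := tgt K hp hq x
  have a' := K'.mem_src.2 (K.snd_symm a ▸ k' : (K.ψ.symm x).2 ∈ K'.J)
  rwa [← K.ψ.right_inv a, ← h _ a', K'.tm_ψ _ a', K.snd_symm a]

end nk

variable (κ lam ν) in
/-- **RAD-PSC** -/
theorem pscStmt : Rad94.PscStmt κ lam ν := by
  intro X nc k e₀ Z z ϖ φ Dm K hz hK σ hσ hP β hβ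
  obtain ⟨C, hC⟩ := hz.ok.bg.tame
  obtain ⟨k₀, k1, k2⟩ := ms_bd hz.ok.bg
  obtain ⟨T, hT⟩ := Nd18.cbs_Dτ e₀.D
  obtain ⟨S, hS⟩ := Nd18.bd_ct
  have hB : ∀ s, ∃ B, ∀ r, 0 ≤ r → |β s r| ≤ B := fun s => by
    obtain ⟨B, hB⟩ := (isCompact_Icc (a := (0 : ℝ)) (b := 1)).exists_bound_of_continuousOn
      (hβ s).1.continuous.continuousOn
    exact ⟨B, fun r hr => hB (min r 1) ⟨by positivity, min_le_right _ _⟩ |>.trans_eq' (by
      rcases le_total r 1 with h | h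
      · rw [min_eq_left h]; rfl
      · rw [min_eq_right h, (hβ s).2 r h, (hβ s).2 1 le_rfl]; rfl)⟩
  choose B hB using hB
  let n : ℝ := (Fintype.card (Option κ) : ℝ)
  refine ⟨kP (|C 0| + 1) (2 * (σ + kS n (C 2)) + (kS n (C 2) / 2 + n * (2 * k₀ + k₀ ^ 2)))
    (n * (6 * cF T 2 S ^ 2 + 2 * (cF T 2 S + |C 0| * cF T 2 S))) (∑ s, B s) ^ 2, fun w _ W L => ?_⟩
  choose A hA using fun v => (L.fo v).1 0
  choose A' hA' using fun v s => yt_bd (L.gok s).ok.S (L.yt v s)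
  refine ⟨fun v => (A v + ∑ s, A' v s) / σ, fun q hq x hx t ht c hc => ?_⟩
  have ok := L.ok t ht
  choose K' m1 m2 using L.ng t ht
  have hψ : ∀ s, ∀ y ∈ (K' s).ψ.source, (K' s).ψ y = K.ψ y := fun s => by
    rw [show (K' s).ψ = (z.K s).ψ from congrArg (·.2.2.1) (m2 s)]; exact hK.ψ s
  obtain ⟨B₀, -, hB₀⟩ := (Pb50.as_cb ok.toOK (fun i s ⟨K₁, j1, j2⟩ => by
    obtain rfl := Option.mem_unique j1 (m1 i)
    have e1 := (congrArg (·.1) (m2 i)).trans (z.hp i)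
    have e2 := (congrArg (·.2.1) (m2 i)).trans (z.hq i)
    cases i <;> cases s
    exacts [(hx _).1, absurd (e2.symm.trans j2) (by simp), absurd (e1.symm.trans j2) (by simp),
      (hx _).1]) hc.1.1).2
  have hE : ∀ y, ‖(L.P t).bg.eC c y‖ ≤ σ := fun y => by
    rw [(hc.2.eq y trivial).2]
    refine (tau_le (L.P t) (fun i => (hz.en i).f) (fun v => CB_bound (hA v t ht) y) hA' q).trans ?_
    simp only [Finsupp.sum, ← mul_div_assoc, ← Finset.sum_div, div_lt_one hσ] at hq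
    exact hq.le
  obtain ⟨m, hm, hG, h0, hD⟩ : ∃ m : ℝ → ℝ, ContDiff ℝ ∞ m ∧ (∀ r, |m r| ≤ ∑ s, B s) ∧
      (∀ r, 1 ≤ nn c K r → m r = 0) ∧
      ∀ y, (L.P t).bg.eD c y = m (K.tm y) • (L.P t).bg.m.ρ none y (c.Φ y) := by
    refine ⟨fun r => ∑ s, Sw88.β (K' s) c r, ContDiff.sum fun s _ => cd_β _ (ok.en s) hc.2.sΦ,
      fun r => (Finset.abs_sum_le_sum_abs _ _).trans (Finset.sum_le_sum fun s _ => ?_),
      fun r hr => Finset.sum_eq_zero fun s _ => β_zero (e := L.en s) (b := Z.bg) K (K' s) c (hψ s) (ok.en s) hr, fun y => ?_⟩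
    · rw [Sw88.β, abs_mul, abs_of_nonneg Nd18.ct_mem.1]
      exact (mul_le_of_le_one_left (abs_nonneg _) Nd18.ct_mem.2).trans (hB s _ (nm_nonneg _))
    · rw [(hc.2.eq y trivial).1, Finset.sum_smul]
      change ∑ i : Bool, ((L.P t).nk i).elim 0 (fun K => K.rad c y) = _
      refine Finset.sum_congr rfl fun s _ => ?_
      rw [show (L.P t).nk s = _ from m1 s, ← β_tm (e := L.en s) (b := Z.bg) K (K' s) c (hψ s) hK.p hK.q]
      rfl
  have hb := ok.bg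
  have ad := hc.2.toAdm
  have bd := fun y => CB_bound (hB₀ 0) y
  rw [L.bg t ht] at hb ad hE hD
  have hn := nn_le (e := e₀) (b := Rad94.sft Z.bg _ w) K (src K hK.p hK.q) hb (hz.en true).ok.cyl.G.vol ad hσ (hP t ht) hE
    (fun y hy => by rw [hD, h0 _ hy.le, zero_smul]) bd
  refine sup_le (e := e₀) (b := Rad94.sft Z.bg _ w) K hK.p hK.q hb ad hm hG hD hn ((Mp86.l4_of_tame hC).mono
    (by linarith [le_abs_self (C 0)])) (by positivity) k1 k2 (fun y => ?_) (fun r y => ?_) bd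
  · have a1 := scal_le hC y
    have a2 := hP t ht y
    have a3 := (norm_add_le _ _).trans (add_le_add (hE y) (le_refl ‖Z.bg.om y + ∑ i, φ t i • ϖ i y‖))
    have a4 := norm_nonneg (Z.bg.F.D none Z.bg.ms y + (Z.bg.A none y * Z.bg.ms y - Z.bg.ms y * Z.bg.A none y))
    change 2 * ‖_ + (Z.bg.om y + ∑ i, φ t i • ϖ i y)‖ + (|scal X.I Z.bg.F.e Z.bg.F.c Z.bg.F.Gam y| / 2 + _) ≤ _
    linarith [le_abs_self (scal X.I Z.bg.F.e Z.bg.F.c Z.bg.F.Gam y), sq_nonneg ‖Z.bg.ms y‖,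
      abs_nonneg (scal X.I Z.bg.F.e Z.bg.F.c Z.bg.F.Gam y)]
  · rw [← τ_tm K hK.p hK.q]
    exact Lop_cb hC (CB_fn K.sm_τ (hT K) 2 (hS _ _ _)) y

end Crest.Agent.X212.Psc68
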