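import Crest.Agent.X212.Sw88.C0

/-!
# Row 212, RAD-PSC (helper68): the `L²` norms of the slices on a cylinder of positive scalar curvature
-/

set_option autoImplicit false
set_option linter.unusedSectionVars false
noncomputable section
open scoped Manifold ContDiff Topology InnerProductSpace
open MeasureTheory Set Filter

namespace Crest.Agent.X212.Psc68
open An Wz78 Sob92 Cyf70 Sw88
open Sw (Bg F2 En3)
open M (Mf)

theorem ode_le {n w : ℝ → ℝ} {σ B : ℝ} (hσ : 0 < σ) (hn : ∀ t, HasDerivAt n (2 * w t) t)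
    (hw : ∀ t, 1 < n t → ∃ d, σ ≤ d ∧ HasDerivAt w d t) (hB : ∀ t, n t ≤ B) (t₀ : ℝ) : n t₀ ≤ 1 := by
  refine le_of_not_gt fun h => ?_
  have q : ∀ t, HasDerivAt (fun t => n t - σ / 2 * (t - t₀) ^ 2) (2 * w t - σ * (t - t₀)) t := fun t =>
    ((hn t).sub ((((hasDerivAt_id t).sub_const t₀).pow 2).const_mul (σ / 2))).congr_deriv (by
      simp only [id]; ring)
  have l : Tendsto (fun t => n t - σ / 2 * (t - t₀) ^ 2) (cocompact ℝ) atBot := by
    refine tendsto_atBot_mono (fun t => sub_le_sub_right (hB t) _) (tendsto_atBot_add_const_left _ _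
      (tendsto_neg_atTop_atBot.comp (Tendsto.const_mul_atTop (by positivity) ?_)))
    simpa only [← dist_eq_norm, Real.dist_eq, sq_abs, Function.comp_def] using
      (tendsto_pow_atTop two_ne_zero).comp (tendsto_dist_right_cocompact_atTop t₀)
  obtain ⟨t, ht⟩ := (continuous_iff_continuousAt.2 fun t => (q t).continuousAt).exists_forall_ge l
  obtain ⟨d, d1, d2⟩ := hw t (by nlinarith [ht t₀, sq_nonneg (t - t₀)])
  have s : ∀ r : ℝ, HasDerivAt (fun r => r + t) 1 r := fun r => (hasDerivAt_id r).add_const t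
  have := (Mp86.second_nonpos (h := fun r => n (r + t) - σ / 2 * (r + t - t₀) ^ 2)
    (h' := fun r => 2 * w (r + t) - σ * (r + t - t₀)) (c := 2 * d - σ)
    (.of_forall fun r => by simpa using ht (r + t))
    (.of_forall fun r => ((q (r + t)).comp r (s r)).congr_deriv (mul_one _))
    ((((d2.comp_of_eq 0 (s 0) (zero_add t).symm).const_mul 2).sub
      (((s 0).sub_const t₀).const_mul σ)).congr_deriv (by ring))).2
  linarith

variable {κ lam ν : Type} [Fintype κ] [Fintype lam] [Fintype ν] [DecidableEq ν]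
  {X : Mf 4} {nc : ℕ} {b : Bg X.I X.M κ lam ν nc} {c : Sw.Cfg X.M κ ν} {x : X.M} {σ : ℝ}

variable (b c) in
/-- half the gradient of `|Φ|²` -/
def vW (i : Option κ) (y : X.M) : ℝ := ⟪nab X.I b.F.e (b.W c) i c.Φ y, c.Φ y⟫_ℝ

variable (b c) in
/-- the Dirac current -/
def vR (i : Option κ) (y : X.M) : ℝ := ⟪b.m.ρ i y (dir X.I b.F.e b.m.ρ (b.W c) c.Φ y), c.Φ y⟫_ℝ

variable (b σ) in
/-- positive scalar curvature -/
def Ps (x : X.M) : Prop := σ + ‖b.ms x‖ ^ 2 + ‖b.om x‖ / 2 +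
  ‖b.F.D none b.ms x + (b.A none x * b.ms x - b.ms x * b.A none x)‖ / 2 ≤ sc b x / 8

section pw
variable (hb : b.OK) (hc : b.Adm c)
include hb hc

theorem sm_vW (i : Option κ) : Sm X.I (vW b c i) := fun x =>
  SA.inner ((frm _).sN (fun a => (cm hb hc).cc.sm a x) i (hc.sΦ x)) (hc.sΦ x)

theorem sm_vR (i : Option κ) : Sm X.I (vR b c i) := fun x =>
  SA.inner (SA.app ((cm hb hc).cc.sρ i x) ((cm hb hc).cc.dir_sm (frm _) (hc.sΦ x))) (hc.sΦ x)

theorem D_sq (i : Option κ) (x : X.M) : b.F.D i (fun y => ‖c.Φ y‖ ^ 2) x = 2 * vW b c i x := by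
  have := dv_inner (e := b.F.e) (A := b.W c) i ((cm hb hc).sk i x) (hc.sΦ x) (hc.sΦ x)
  simp only [real_inner_self_eq_norm_sq] at this
  rw [Pre.D_def, this, vW, real_inner_comm, two_mul]

theorem nab_dir {ψ : X.M → Eu ν} (hψ : SA X.I ψ x)
    (hD : ∀ᶠ y in 𝓝 x, dir X.I b.F.e b.m.ρ (b.W c) ψ y + b.ms y (ψ y) = 0) (i : Option κ) :
    ‖nab X.I b.F.e (b.W c) i (dir X.I b.F.e b.m.ρ (b.W c) ψ) x‖ ≤
      ‖b.F.D i b.ms x + (b.A i x * b.ms x - b.ms x * b.A i x)‖ * ‖ψ x‖ +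
        ‖b.ms x‖ * ‖nab X.I b.F.e (b.W c) i ψ x‖ := by
  have sm : SA X.I b.ms x := hb.cms.choose_spec.1 x
  have e1 := nab_congr (I := X.I) (e := b.F.e) (A := b.W c) (v := fun _ => 0) i hD
  rw [nab_add i ((cm hb hc).cc.dir_sm (frm _) hψ) (SA.app sm hψ), nab_app i sm hψ, nabE_ms hb hc,
    show nab X.I b.F.e (b.W c) i (fun _ => 0) x = 0 by simp [nab, dv_const],
    add_eq_zero_iff_eq_neg] at e1
  rw [e1, norm_neg]
  exact (norm_add_le _ _).trans (add_le_add (ContinuousLinearMap.le_opNorm _ _)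
    (ContinuousLinearMap.le_opNorm _ _))

theorem pw (hΓ : ∀ k, b.F.Gam none none k x = 0) (hD : ∀ᶠ y in 𝓝 x, b.eD c y = 0) (hP : Ps b σ x)
    (hE : ‖b.eC c x‖ ≤ σ) : σ * ‖c.Φ x‖ ^ 2 ≤ dvg X.I b.F.e b.F.dv (vW b c) x +
      dvg X.I b.F.e b.F.dv (vR b c) x - b.F.D none (vR b c none) x := by
  have D := cm hb hc
  have s := hc.sΦ x
  have sD := D.cc.dir_sm (frm _) s
  have e1 := (frm b.F).inner_lap (g := b.F.dv) (fun a => D.cc.sm a x) (fun a => D.sk a x) s s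
  have e2 := D.cc.inner_dir (lc_gam _) (frm _) (dv_gam hb.G.vol x) (fun a => D.sk a x)
    (fun a => D.ρsk a x) sD s
  have e3 := weitz hb hc s (.of_forall fun y => p_of hb (hc.pΦ y)) (c.Φ x)
  have e4 := dv_inner (e := b.F.e) (A := b.W c) none (D.sk none x) (SA.app (D.cc.sρ none x) sD) s
  rw [nab_app none (D.cc.sρ none x) sD, D.cc.comp] at e4
  simp only [hΓ, zero_smul, Finset.sum_const_zero, zero_apply, zero_add] at e4
  simp only [real_inner_self_eq_norm_sq] at e1 e2 e3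
  have a1 := inner_fc_qd_ge hb (hc.pΦ x)
  have a2 := (norm_add_le _ _).trans (add_le_add hE (le_refl ‖b.om x‖))
  have a3 := nab_dir hb hc s hD none
  have a4 : ‖dir X.I b.F.e b.m.ρ (b.W c) c.Φ x‖ ≤ ‖b.ms x‖ * ‖c.Φ x‖ := by
    rw [eq_neg_of_add_eq_zero_left hD.self_of_nhds, norm_neg]
    exact ContinuousLinearMap.le_opNorm _ _
  have a5 := Finset.single_le_sum (f := fun a => ‖nab X.I b.F.e (b.W c) a c.Φ x‖ ^ 2)
    (fun _ _ => sq_nonneg _) (Finset.mem_univ none)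
  have a6 := fun u v => (real_inner_le_norm _ v).trans (mul_le_mul_of_nonneg_right
    ((p8 hb x).norm_ρ none u) (norm_nonneg _))
  have a7 := (a6 _ (c.Φ x)).trans (mul_le_mul_of_nonneg_right a3 (norm_nonneg _))
  have a8 := (a6 _ (nab X.I b.F.e (b.W c) none c.Φ x)).trans
    (mul_le_mul_of_nonneg_right a4 (norm_nonneg _))
  have a9 := pow_le_pow_left₀ (norm_nonneg _) a4 2
  have b1 := mul_le_mul_of_nonneg_right a2 (sq_nonneg ‖c.Φ x‖)
  have b2 := mul_le_mul_of_nonneg_right hP (sq_nonneg ‖c.Φ x‖)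
  have b3 : 0 ≤ b.w * ‖c.Φ x‖ ^ 4 := mul_nonneg hb.w (by positivity)
  change _ = _ - dvg _ _ _ (vW b c) x at e1
  change _ = _ + dvg _ _ _ (vR b c) x at e2
  change b.F.D none (vR b c none) x = _ at e4
  nlinarith [sq_nonneg (‖nab X.I b.F.e (b.W c) none c.Φ x‖ - ‖b.ms x‖ * ‖c.Φ x‖)]

end pw

variable (c) in
/-- the norms of the slices -/
def nn {Y : Mf 3} [CompactSpace Y.M] {D : Nd18.YD Y.I Y.M κ lam} {B} {G : Geo X.I X.M (Option κ) lam}
    (K : Nd18.Nk D B G) (t : ℝ) : ℝ := ∫ y, ‖c.Φ (K.ψ (y, t))‖ ^ 2 ∂D.F.μ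

variable {e : En3 κ lam ν} (K : Nd18.Nk e.D b.B b.G) (hK : ∀ z, z ∈ K.ψ.source)
include hK

theorem sm_pb {f : X.M → ℝ} (h : Sm X.I f) : Sm (IC e.Y.I) fun z => f (K.ψ z) := fun z =>
  K.rel.sm (hK z) (h _)

theorem D_pb (f : X.M → ℝ) (i : Option κ) (z : e.Y.M × ℝ) :
    e.D.Z.D i (fun z => f (K.ψ z)) z = b.F.D i f (K.ψ z) :=
  K.rel.D (hK z) i (.of_forall fun _ => rfl)

theorem int_pb {f : X.M → ℝ} (h : Sm X.I f) (t : ℝ) :
    Integrable (fun y => f (K.ψ (y, t))) e.D.F.μ :=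
  integ (sm_slice_fst (sm_pb K hK h) t) (.of_compactSpace _)

theorem der_pb {f : X.M → ℝ} (h : Sm X.I f) (t : ℝ) :
    HasDerivAt (fun s => ∫ y, f (K.ψ (y, s)) ∂e.D.F.μ)
      (∫ y, b.F.D none f (K.ψ (y, t)) ∂e.D.F.μ) t := by
  simp only [← D_pb K hK]
  exact der_sl e.D.F.toPre isOpen_univ (g := fun z => f (K.ψ z)) (sm_pb K hK h).contMDiffOn (mem_univ t)

theorem int_dvg (hv : e.D.Z.IsVol) (hv' : b.F.IsVol) {V : Option κ → X.M → ℝ}
    (h : ∀ i, Sm X.I (V i)) (t : ℝ) : ∫ y, dvg X.I b.F.e b.F.dv V (K.ψ (y, t)) ∂e.D.F.μ =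
      ∫ y, b.F.D none (V none) (K.ψ (y, t)) ∂e.D.F.μ := by
  have s := fun k => sm_slice_fst (sm_pb K hK (h (some k))) t
  have c := fun k => HasCompactSupport.of_compactSpace fun y => V (some k) (K.ψ (y, t))
  rw [← add_zero (∫ y, b.F.D none _ _ ∂_), ← integral_dvg (F := e.D.F) s c,
    ← integral_add (int_pb K hK (b.F.sm_D (h none) none) t) (integ_dvg s c)]
  refine integral_congr_ae (.of_forall fun y => ?_)
  simp only [dvg, Fintype.sum_option, ← K.rel.dv (hK _) hv hv', ← Pre.D_def, ← D_pb K hK]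
  rw [show e.D.Z.dv none (y, t) = 0 from rfl, zero_mul, add_zero]
  exact congrArg _ (Finset.sum_congr rfl fun k _ =>
    congrArg₂ (· + ·) (D_some e.D.F.toPre (sm_pb K hK (h _)) k _) rfl)

theorem gam0 (k : Option κ) (z : e.Y.M × ℝ) : b.F.Gam none none k (K.ψ z) = 0 := by
  have h0 : ∀ (a : Option κ) (t : ℝ) x, (cylP e.D.F.toPre).D a (fun _ => t) x = 0 := fun a t x =>
    congrFun (dv_const t) x
  refine (K.rel.Gam (hK z) _ _ _).symm.trans ?_
  cases k <;> simp only [Fr.Gam, cyl, cP, cc, h0] <;> norm_num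

theorem sm_sq (hc : b.Adm c) : Sm X.I fun y => ‖c.Φ y‖ ^ 2 :=
  (contDiff_norm_sq ℝ).contMDiff.comp hc.sΦ

theorem nn_le (hb : b.OK) (hv : e.D.Z.IsVol) (hc : b.Adm c) (hσ : 0 < σ) (hP : ∀ x, Ps b σ x)
    (hE : ∀ x, ‖b.eC c x‖ ≤ σ) (hD : ∀ x, 1 < nn c K (K.tm x) → b.eD c x = 0) {B : ℝ}
    (hB : ∀ x, ‖c.Φ x‖ ≤ B) (t : ℝ) : nn c K t ≤ 1 := by
  have s := sm_sq K hK hc
  have d : ∀ t, HasDerivAt (nn c K) (2 * ∫ y, vW b c none (K.ψ (y, t)) ∂e.D.F.μ) t := fun t =>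
    (der_pb K hK s t).congr_deriv (by simp only [D_sq hb hc, integral_const_mul])
  have ct : Continuous fun x => nn c K (K.tm x) :=
    (continuous_iff_continuousAt.2 fun t => (d t).continuousAt).comp K.cont
  refine ode_le (B := ∫ _, B ^ 2 ∂e.D.F.μ) hσ d (fun t ht => ⟨_, ?_, der_pb K hK (sm_vW hb hc none) t⟩)
    (fun t => integral_mono (int_pb K hK s t) (integ contMDiff_const (.of_compactSpace _)) fun y =>
      pow_le_pow_left₀ (norm_nonneg _) (hB _) 2) t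
  have i1 := int_pb K hK (sm_dvg (F := b.F) (sm_vW hb hc)) t
  have i2 := int_pb K hK (sm_dvg (F := b.F) (sm_vR hb hc)) t
  have i3 := int_pb K hK (b.F.sm_D (sm_vR hb hc none) none) t
  have := integral_mono ((int_pb K hK s t).const_mul σ) ((i1.add i2).sub i3) fun y =>
    pw hb hc (fun k => gam0 K hK k (y, t)) ((ct.continuousAt.eventually (lt_mem_nhds (by
      simpa only [K.tm_ψ _ (hK _)] using ht))).mono hD) (hP _) (hE _)
  rw [integral_const_mul, integral_sub' (i1.add i2) i3, integral_add' i1 i2,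
    int_dvg K hK hv hb.G.vol (sm_vW hb hc), int_dvg K hK hv hb.G.vol (sm_vR hb hc)] at this
  change σ * nn c K t ≤ _ at this
  nlinarith

end Crest.Agent.X212.Psc68
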