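import Crest.Agent.X212.Psc68.Ode
import Crest.Agent.X212.Mp86.Mos

/-!
# Row 212, RAD-PSC (helper68): from the slice norms to the supremum, uniformly in the scale
-/

set_option autoImplicit false
set_option linter.unusedSectionVars false
noncomputable section
open scoped Manifold ContDiff Topology InnerProductSpace
open MeasureTheory Set Filter

namespace Crest.Agent.X212.Psc68
open An Wz78 Sob92 Cyf70 Sw88
open Sw (Bg F2 En3)
open M (Mf)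
open Mp86 (Lop gr2 vf cm2 cm1 L4)
open Nd18 (ct Dp)

variable {κ lam ν : Type} [Fintype κ] [Fintype lam] [Fintype ν] [DecidableEq ν]
  {X : Mf 4} {nc : ℕ} {b : Bg X.I X.M κ lam ν nc} {c : Sw.Cfg X.M κ ν} {x : X.M}
  {ψ : X.M → Eu ν} {ζ : X.M → ℝ} {k L N σ S G : ℝ}

section pw
variable (hb : b.OK) (hc : b.Adm c)
include hb hc

/-- Bochner inequality with half of the gradient term -/
theorem boch2 (hψ : SA X.I ψ x) (hp : ∀ᶠ y in 𝓝 x, b.m.p y (ψ y) = ψ y)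
    (hD : ∀ᶠ y in 𝓝 x, dir X.I b.F.e b.m.ρ (b.W c) ψ y + b.ms y (ψ y) = 0) (h1 : ‖b.ms x‖ ≤ k)
    (h2 : ∀ i, ‖b.F.D i b.ms x + (b.A i x * b.ms x - b.ms x * b.A i x)‖ ≤ k) :
    gr2 X.I b.F.e (b.W c) ψ x + 8 * ⟪b.fc c x, b.qd x (ψ x) (ψ x)⟫_ℝ - (|sc b x| / 2 +
      Fintype.card (Option κ) * (2 * k + k ^ 2)) * ‖ψ x‖ ^ 2 ≤
        Lop X.I b.F.e b.F.dv (fun y => ‖ψ y‖ ^ 2) x := by
  have e := weitz hb hc hψ hp (ψ x)
  have q : ∀ i, ⟪b.m.ρ i x (nab X.I b.F.e (b.W c) i (dir X.I b.F.e b.m.ρ (b.W c) ψ) x), ψ x⟫_ℝ ≤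
      (1 / 2) * ‖nab X.I b.F.e (b.W c) i ψ x‖ ^ 2 + (k + k ^ 2 / 2) * ‖ψ x‖ ^ 2 := fun i => by
    have n1 := (real_inner_le_norm _ (ψ x)).trans (mul_le_mul_of_nonneg_right
      (((p8 hb x).norm_ρ i _).trans ((nab_dir hb hc hψ hD i).trans (add_le_add
        (mul_le_mul_of_nonneg_right (h2 i) (norm_nonneg _))
        (mul_le_mul_of_nonneg_right h1 (norm_nonneg _))))) (norm_nonneg _))
    nlinarith [sq_nonneg (‖nab X.I b.F.e (b.W c) i ψ x‖ - k * ‖ψ x‖)]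
  have k' := Finset.sum_le_sum fun i (_ : i ∈ Finset.univ) => q i
  rw [← sum_inner, Finset.sum_add_distrib, Finset.sum_const, Finset.card_univ, nsmul_eq_mul,
    ← Finset.mul_sum] at k'
  rw [Mp86.Lop_normSq (A := b.W c) (vf b.F.toPre x) (mc hb hc x).sm (mc hb hc x).sk
    (hψ.of_le Mp86.two_le), Mp86.LA_eq_lap, inner_neg_left]
  rw [real_inner_self_eq_norm_sq] at e
  change ⟪dir _ _ _ _ _ x, _⟫_ℝ ≤ _ * gr2 X.I b.F.e (b.W c) ψ x + _ at k'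
  change _ ≤ _ + 2 * gr2 X.I b.F.e (b.W c) ψ x
  nlinarith [mul_le_mul_of_nonneg_right (neg_abs_le (sc b x)) (sq_nonneg ‖ψ x‖)]

theorem sub_cut (hψ : Sm X.I ψ) (hζ : Sm X.I ζ) (h1 : ζ x ∈ Icc (0 : ℝ) 1) (hL : 0 ≤ L)
    (hN : 6 * ∑ a, dv X.I (b.F.e a) ζ x ^ 2 + 2 * |Lop X.I b.F.e b.F.dv ζ x| ≤ N) (h0 : 0 ≤ σ)
    (e : ζ x ≠ 0 → gr2 X.I b.F.e (b.W c) ψ x - L * ‖ψ x‖ ^ 2 ≤
      Lop X.I b.F.e b.F.dv (fun y => ‖ψ y‖ ^ 2) x ∧ (1 + L + 3 * N) * ‖ψ x‖ ^ 2 ≤ σ) :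
    ζ x * ζ x * ‖ψ x‖ ^ 2 - σ ≤ Lop X.I b.F.e b.F.dv (fun y => ζ y * ζ y * ‖ψ y‖ ^ 2) x := by
  have z2 := cm2 hζ x
  have z1 := (cm1 hζ x).md le_rfl
  have hD : ∀ a, dv X.I (b.F.e a) (fun y => ζ y * ζ y) x = 2 * ζ x * dv X.I (b.F.e a) ζ x :=
    fun a => by rw [Mp86.dv_mul z1 z1]; ring
  rw [Mp86.Lop_mul_fun (f := fun y => ζ y * ζ y) (vf b.F.toPre x) (z2.mul z2)
    (Mp86.cm_normSq (cm2 hψ x)), Mp86.Lop_mul_fun (vf b.F.toPre x) z2 z2]
  simp only [hD]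
  simp only [mul_assoc, ← Finset.mul_sum, ← sq (dv _ _ _ _)]
  have g0 : 0 ≤ ∑ a, dv X.I (b.F.e a) ζ x ^ 2 := Finset.sum_nonneg fun _ _ => sq_nonneg _
  by_cases hz : ζ x = 0
  · simp only [hz]; nlinarith [mul_nonneg g0 (sq_nonneg ‖ψ x‖)]
  obtain ⟨e1, e2⟩ := e hz
  have k1 := Mp86.sum_dv_normSq_le (e := b.F.e) (fun a => (cm hb hc).sk a x) ((cm1 hψ x).md le_rfl)
  have k3 := (Finset.sum_mul_sq_le_sq_mul_sq Finset.univ (fun a => dv X.I (b.F.e a) ζ x)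
    fun a => dv X.I (b.F.e a) (fun y => ‖ψ y‖ ^ 2) x).trans (mul_le_mul_of_nonneg_left k1 g0)
  have G0 : 0 ≤ gr2 X.I b.F.e (b.W c) ψ x := Mp86.gr2_nonneg
  have k4 : -|Lop X.I b.F.e b.F.dv ζ x| ≤ ζ x * Lop X.I b.F.e b.F.dv ζ x := by
    nlinarith [h1.1, h1.2, neg_abs_le (Lop X.I b.F.e b.F.dv ζ x),
      abs_nonneg (Lop X.I b.F.e b.F.dv ζ x)]
  set Y := ∑ a, dv X.I (b.F.e a) ζ x * dv X.I (b.F.e a) (fun y => ‖ψ y‖ ^ 2) x
  set g := ∑ a, dv X.I (b.F.e a) ζ x ^ 2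
  set u := ‖ψ x‖ ^ 2
  have u0 : 0 ≤ u := sq_nonneg _
  have k5 : -(ζ x ^ 2 * gr2 X.I b.F.e (b.W c) ψ x + 16 * (g * u)) ≤ 4 * (ζ x * Y) := by
    refine (abs_le_of_sq_le_sq' ?_ (by positivity)).1
    nlinarith [mul_le_mul_of_nonneg_left k3 (sq_nonneg (ζ x)),
      sq_nonneg (ζ x ^ 2 * gr2 X.I b.F.e (b.W c) ψ x - 16 * (g * u))]
  have k6 : ζ x ^ 2 ≤ 1 := pow_le_one₀ h1.1 h1.2
  nlinarith [mul_le_mul_of_nonneg_right k4 u0, mul_nonneg g0 u0,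
    mul_le_mul_of_nonneg_left e1 (sq_nonneg (ζ x)), mul_le_mul_of_nonneg_right hN u0,
    mul_le_mul_of_nonneg_right k6 (mul_nonneg (add_nonneg zero_le_one hL) u0),
    mul_nonneg (abs_nonneg (Lop X.I b.F.e b.F.dv ζ x)) u0]

end pw

/-- the bump of radius `r` at `t` -/
abbrev bu (t r : ℝ) : ℝ → ℝ := ct (some (t - r)) (some (t + r)) 0

theorem bu_ne {t r s : ℝ} (h : bu t r s ≠ 0) : s ∈ Icc (t - r) (t + r) := by
  have m : s ∈ Dp (some (t - r)) (some (t + r)) 0 := by_contra fun n => h (Nd18.ct_zero n)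
  simpa [Dp] using m

theorem bu_one {t r s : ℝ} (h : s ∈ Icc (t - r) (t + r)) : bu t (r + 1) s = 1 :=
  Nd18.ct_one (by simp only [Dp, Option.mem_def, Option.some.injEq, forall_eq', mem_ofPred_eq]
                  constructor <;> linarith [h.1, h.2])

variable {e : En3 κ lam ν} (K : Nd18.Nk e.D b.B b.G) (hp : K.p = none) (hq : K.q = none)
include hp hq

theorem src (z : e.Y.M × ℝ) : z ∈ K.ψ.source := K.mem_src.2 (by simp [Nd18.Jv, hp, hq])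

theorem tgt (x : X.M) : x ∈ K.ψ.target := K.tgt ▸ (by simp [Nd18.Jv, hp, hq])

theorem τ_tm : K.τ = K.tm := funext fun x => by rw [Nd18.Nk.τ, hp, hq, Nd18.tf_none]

theorem hcs_bu (t r : ℝ) : HasCompactSupport fun x => bu t r (K.tm x) :=
  .intro ((isCompact_univ.prod (isCompact_Icc (a := t - r) (b := t + r))).image_of_continuousOn
    (K.ψ.continuousOn.mono fun z _ => src K hp hq z)) fun x hx => by_contra fun h =>
      hx ⟨_, ⟨trivial, K.snd_symm (tgt K hp hq x) ▸ bu_ne h⟩, K.ψ.right_inv (tgt K hp hq x)⟩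

theorem int_bu (hc : b.Adm c) (hn : ∀ t, nn c K t ≤ 1) (t : ℝ) :
    ∫ x, bu t 2 (K.tm x) * ‖c.Φ x‖ ^ 2 ∂b.F.μ ≤ 4 := by
  have hK := src K hp hq
  have m := K.iso.μ
  rw [eq_univ_of_forall hK, eq_univ_of_forall (tgt K hp hq), Measure.restrict_univ,
    Measure.restrict_univ] at m
  have c1 : Continuous K.ψ := continuousOn_univ.1 (eq_univ_of_forall hK ▸ K.ψ.continuousOn)
  have c2 : Continuous fun x => bu t 2 (K.tm x) * ‖c.Φ x‖ ^ 2 :=
    (Nd18.contDiff_ct.continuous.comp K.cont).mul (sm_sq K hK hc).continuous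
  rw [← m, integral_map c1.aemeasurable c2.aestronglyMeasurable]
  refine (integral_cyl e.D.F.toPre (c2.comp c1) (.intro (isCompact_univ.prod (isCompact_Icc
    (a := t - 2) (b := t + 2))) fun z hz => by_contra fun h => hz ⟨trivial,
      K.tm_ψ z (hK z) ▸ bu_ne (left_ne_zero_of_mul h)⟩)).trans_le ?_
  simp only [Function.comp, K.tm_ψ _ (hK _), integral_const_mul]
  refine (integral_mono_of_nonneg (g := (Icc (t - 2) (t + 2)).indicator 1) (.of_forall fun s =>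
    mul_nonneg Nd18.ct_mem.1 (integral_nonneg fun _ => sq_nonneg _))
    ((integrable_indicator_iff measurableSet_Icc).2 (continuous_one.integrableOn_Icc))
    (.of_forall fun s => ?_)).trans ?_
  · by_cases h : bu t 2 s = 0
    · simp only [h, zero_mul]; exact indicator_nonneg (fun _ _ => zero_le_one) _
    · rw [indicator_of_mem (bu_ne h)]
      exact mul_le_one₀ Nd18.ct_mem.2 (integral_nonneg fun _ => sq_nonneg _) (hn s)
  · rw [integral_indicator_one measurableSet_Icc, Real.volume_real_Icc_of_le (by linarith)]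
    linarith

omit hp hq in
/-- the constant -/
def kP (S L N G : ℝ) : ℝ := (3 + 8 * S ^ 2) * (2 * ((1 + L + 3 * N) * Real.exp (2 * G)))

variable (hb : b.OK) (hc : b.Adm c) {m : ℝ → ℝ} (hm : ContDiff ℝ ∞ m) (hG : ∀ t, |m t| ≤ G)
  (hD : ∀ x, b.eD c x = m (K.tm x) • b.m.ρ none x (c.Φ x)) (hn : ∀ t, nn c K t ≤ 1)
  (hS : L4 b.F.toPre S) (hS0 : 0 < S) (h1 : ∀ x, ‖b.ms x‖ ≤ k)
  (h2 : ∀ i x, ‖b.F.D i b.ms x + (b.A i x * b.ms x - b.ms x * b.A i x)‖ ≤ k)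
  (h3 : ∀ x, 2 * ‖b.eC c x + b.om x‖ + (|sc b x| / 2 +
    Fintype.card (Option κ) * (2 * k + k ^ 2)) ≤ L)
  (hN : ∀ t x, 6 * ∑ a, dv X.I (b.F.e a) (fun y => bu t 1 (K.tm y)) x ^ 2 +
    2 * |Lop X.I b.F.e b.F.dv (fun y => bu t 1 (K.tm y)) x| ≤ N)
include hb hc hm hG hD hn hS hS0 h1 h2 h3 hN

theorem step {r : ℝ} (r0 : 0 < r) (hr : ∀ x, ‖c.Φ x‖ ≤ r ^ 2) (x₀ : X.M) :
    ‖c.Φ x₀‖ ^ 2 ≤ kP S L N G * r ^ 3 := by
  have := Sob92.openPos b.F.toPre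
  have sτ : Sm X.I K.tm := τ_tm K hp hq ▸ K.sm_τ
  set t := K.tm x₀
  have dγ : ∀ s, HasDerivAt (fun s => ∫ u in t..s, m u) (m s) s := fun s =>
    (hm.continuous.integral_hasStrictDerivAt t s).hasDerivAt
  set γ := fun s => ∫ u in t..s, m u with hγ
  have sγ : ContDiff ℝ ∞ γ := contDiff_infty_iff_deriv.2 ⟨fun s => (dγ s).differentiableAt,
    funext (fun s => (dγ s).deriv) ▸ hm⟩
  have sE : Sm X.I fun x => Real.exp (-γ (K.tm x)) :=
    (Real.contDiff_exp.comp sγ.neg).contMDiff.comp sτ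
  set ψ : X.M → Eu ν := fun x => Real.exp (-γ (K.tm x)) • c.Φ x with hψ
  have sψ : Sm X.I ψ := sE.smul hc.sΦ
  have e0 : ∀ x, dir X.I b.F.e b.m.ρ (b.W c) ψ x + b.ms x (ψ x) = 0 := fun x => by
    have d := fun i => D_fn b.F.toPre (φ := fun s => Real.exp (-γ s)) (dγ (K.tm x)).neg.exp (sτ x) i
    have d0 : b.F.D none K.tm x = 1 := by
      rw [← τ_tm K hp hq, K.D_τ_none, hp, hq, funext fun s => Nd18.tf_none (s := s)]; simp
    have d1 : ∀ a, b.F.D (some a) K.tm x = 0 := fun a => by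
      rw [← τ_tm K hp hq, K.D_τ_some]; rfl
    rw [hψ, dir_smul b.F.toPre _ _ (sE x) (hc.sΦ x), map_smul, add_assoc, ← smul_add]
    change _ + _ • b.eD c x = 0
    simp only [d, hD, Fintype.sum_option, d0, d1, smul_smul]
    simp
  have n1 : ∀ x, ‖ψ x‖ ^ 2 = Real.exp (-γ (K.tm x)) ^ 2 * ‖c.Φ x‖ ^ 2 := fun x => by
    rw [hψ, norm_smul, mul_pow, Real.norm_eq_abs, sq_abs]
  have k0 := (norm_nonneg _).trans (h1 x₀)
  have L0 : 0 ≤ L := le_trans (by positivity) (h3 x₀)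
  have N0 : 0 ≤ N := le_trans (by positivity) (hN t x₀)
  set q := (1 + L + 3 * N) * Real.exp (2 * G) with hq'
  have q0 : 0 < q := by positivity
  have sζ : ∀ r, Sm X.I fun y => bu t r (K.tm y) := fun r => Nd18.contDiff_ct.contMDiff.comp sτ
  have sΦ := sm_sq K (src K hp hq) hc
  have sw := ((sζ 1).mul (sζ 1)).mul ((contDiff_norm_sq ℝ).contMDiff.comp sψ)
  have cσ := continuous_const (y := q).mul ((sζ 2).mul sΦ).continuous
  have hσ : HasCompactSupport fun x => bu t 2 (K.tm x) * ‖c.Φ x‖ ^ 2 := (hcs_bu K hp hq t 2).mul_right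
  have U : Mp86.Sub b.F (fun y => bu t 1 (K.tm y) * bu t 1 (K.tm y) * ‖ψ y‖ ^ 2)
      fun y => q * (bu t 2 (K.tm y) * ‖c.Φ y‖ ^ 2) := by
    refine ⟨sw, fun s hs => (hcs_bu K hp hq t 1).isCompact.of_isClosed_subset
      (isClosed_le continuous_const sw.continuous) fun x hx => subset_tsupport _ fun h => ?_,
      fun x => sub_cut hb hc sψ (sζ 1) Nd18.ct_mem L0 (hN t x)
        (mul_nonneg q0.le (mul_nonneg Nd18.ct_mem.1 (sq_nonneg _))) fun h => ⟨?_, ?_⟩, cσ⟩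
    · simp only [mem_ofPred_eq, h, zero_mul] at hx
      linarith
    · refine le_trans ?_ (boch2 hb hc (sψ x) (.of_forall fun y => by
        rw [hψ, map_smul, p_of hb (hc.pΦ y)]) (.of_forall e0) (h1 x) fun i => h2 i x)
      have a1 := mul_le_mul_of_nonneg_left (inner_fc_qd_ge hb (hc.pΦ x))
        (sq_nonneg (Real.exp (-γ (K.tm x))))
      have a2 := mul_le_mul_of_nonneg_right (h3 x) (sq_nonneg ‖ψ x‖)
      have a3 : 0 ≤ Real.exp (-γ (K.tm x)) ^ 2 * (b.w * ‖c.Φ x‖ ^ 4) :=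
        mul_nonneg (sq_nonneg _) (mul_nonneg hb.w (by positivity))
      rw [show b.qd x (ψ x) (ψ x) = _ from qd_smul _ _ _ _, real_inner_smul_right, ← sq]
      rw [n1] at a2 ⊢
      nlinarith
    · have a1 : |γ (K.tm x)| ≤ G := by
        refine (intervalIntegral.norm_integral_le_of_norm_le_const (f := m) fun s _ => hG s).trans
          (mul_le_of_le_one_right ((abs_nonneg _).trans (hG 0)) (abs_le.2 ?_))
        constructor <;> linarith [(bu_ne h).1, (bu_ne h).2]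
      rw [show (2 : ℝ) = 1 + 1 by norm_num, bu_one (bu_ne h), one_mul, n1, hq', mul_assoc]
      gcongr
      rw [← Real.exp_nat_mul, Real.exp_le_exp]
      push_cast; linarith [neg_abs_le (γ (K.tm x))]
  have i1 : Integrable (fun x => bu t 2 (K.tm x) * ‖c.Φ x‖ ^ 2) b.F.μ :=
    ((sζ 2).mul sΦ).continuous.integrable_of_hasCompactSupport hσ
  have i2 : Integrable (fun x => (q * (bu t 2 (K.tm x) * ‖c.Φ x‖ ^ 2)) ^ 4) b.F.μ :=
    Mp86.integ_pow (F := b.F) cσ hσ.mul_left four_ne_zero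
  have := U.en.sup_le hS hS0 (β := 2 * q * r ^ 3) (by positivity) i2 ((integral_mono i2
    (i1.const_mul (q ^ 4 * r ^ 12)) fun x => ?_).trans ?_) x₀
  · rw [show bu t 1 t = 1 by simpa using bu_one (t := t) (r := 0) (s := t) (by simp), n1,
      show γ (K.tm x₀) = 0 from intervalIntegral.integral_same] at this
    simpa [kP, mul_assoc, hq'] using this
  · have a1 : bu t 2 (K.tm x) * ‖c.Φ x‖ ^ 2 ≤ r ^ 4 :=
      (mul_le_of_le_one_left (sq_nonneg _) Nd18.ct_mem.2).trans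
        ((pow_le_pow_left₀ (norm_nonneg _) (hr x) 2).trans_eq (by ring))
    have a0 : 0 ≤ bu t 2 (K.tm x) * ‖c.Φ x‖ ^ 2 := mul_nonneg Nd18.ct_mem.1 (sq_nonneg _)
    have a2 := mul_le_mul_of_nonneg_right (pow_le_pow_left₀ a0 a1 3) a0
    beta_reduce
    nlinarith [mul_le_mul_of_nonneg_left a2 (pow_pos q0 4).le]
  · rw [integral_const_mul]
    have := mul_le_mul_of_nonneg_left (int_bu K hp hq hc hn t) (show 0 ≤ q ^ 4 * r ^ 12 by positivity)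
    nlinarith [show 0 ≤ q ^ 4 * r ^ 12 by positivity]

theorem sup_le {B : ℝ} (hB : ∀ x, ‖c.Φ x‖ ≤ B) (x : X.M) : ‖c.Φ x‖ ≤ kP S L N G ^ 2 := by
  have : Nonempty X.M := ⟨x⟩
  have bd : BddAbove (range fun x => ‖c.Φ x‖) := ⟨B, forall_mem_range.2 hB⟩
  have le := le_ciSup bd
  set M := ⨆ x, ‖c.Φ x‖
  refine (le x).trans (le_of_not_gt fun h => ?_)
  have M0 : 0 < M := (sq_nonneg _).trans_lt h
  have r0 := Real.sqrt_pos.2 M0
  have r2 := Real.sq_sqrt M0.le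
  have s := step K hp hq hb hc hm hG hD hn hS hS0 h1 h2 h3 hN r0 fun x => (le x).trans_eq r2.symm
  have a1 : M ≤ √(kP S L N G * √M ^ 3) := ciSup_le fun y => Real.le_sqrt_of_sq_le (s y)
  have a2 := (Real.le_sqrt M0.le ((sq_nonneg _).trans (s x))).1 a1
  have a3 : √M ≤ kP S L N G := le_of_mul_le_mul_right (by nlinarith) (pow_pos r0 3)
  nlinarith

end Crest.Agent.X212.Psc68
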